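import Vale.Agent.P272L68.Defs
import Vale.Agent.P272.K.Inv.Chart
import Mathlib.Geometry.Manifold.MFDeriv.FDeriv

/-! A Kähler form gives a Kähler metric in the charts. -/

open scoped Manifold ContDiff Topology ComplexConjugate ComplexOrder
open Complex Filter

set_option linter.all false

noncomputable section

namespace Vale.Agent.P272L

open Vale.Agent.P272.K

variable {n : ℕ}

/-- real 2-forms on `ℂⁿ` -/
abbrev F2 (n : ℕ) : Type := Cm n [⋀^Fin 2]→L[ℝ] ℝ

lemma f2_swap (β : F2 n) (u v : Cm n) : β ![u, v] = -β ![v, u] := by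
  have h := β.toAlternatingMap.map_swap ![v, u] (i := 0) (j := 1) (by decide)
  have e : (![v, u] : Fin 2 → Cm n) ∘ Equiv.swap 0 1 = ![u, v] := by
    funext i; fin_cases i <;> rfl
  rw [e] at h
  exact h

lemma f2_add (β : F2 n) (u u' v : Cm n) : β ![u + u', v] = β ![u, v] + β ![u', v] :=
  β.vecCons_add _ _ _

lemma f2_smul (β : F2 n) (c : ℝ) (u v : Cm n) : β ![c • u, v] = c * β ![u, v] :=
  β.vecCons_smul _ _ _

lemma f2_neg (β : F2 n) (u v : Cm n) : β ![-u, v] = -β ![u, v] := by
  have := f2_smul β (-1) u v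
  rwa [neg_one_smul, neg_one_mul] at this

/-- invariance under `J` -/
def Inv (β : F2 n) : Prop := ∀ u v : Cm n, β ![I • u, I • v] = β ![u, v]

lemma II (u : Cm n) : I • I • u = -u := by rw [smul_smul, I_mul_I, neg_one_smul]

lemma Inv.left {β : F2 n} (h : Inv β) (u v : Cm n) : β ![I • u, v] = -β ![u, I • v] := by
  rw [← h (I • u) v, II, f2_neg]

/-- the Hermitian form of a `J`-invariant 2-form -/
def Hf (β : F2 n) (u v : Cm n) : ℂ := (β ![u, I • v] : ℝ) - I * (β ![u, v] : ℝ)

lemma Inv.hf_conj {β : F2 n} (h : Inv β) (u v : Cm n) : Hf β v u = conj (Hf β u v) := by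
  have h1 : β ![v, I • u] = β ![u, I • v] := by rw [f2_swap, h.left, neg_neg]
  simp only [Hf, h1, f2_swap β v u, map_sub, map_mul, conj_ofReal, conj_I]
  push_cast; ring

lemma Inv.hf_I {β : F2 n} (h : Inv β) (u v : Cm n) : Hf β (I • u) v = I * Hf β u v := by
  simp only [Hf, h u v, h.left u v]
  push_cast
  linear_combination (β ![u, v] : ℂ) * I_mul_I

/-- linearity in the first slot -/
def Inv.hl {β : F2 n} (h : Inv β) (v : Cm n) : Cm n →ₗ[ℂ] ℂ where
  toFun u := Hf β u v
  map_add' u u' := by simp only [Hf, f2_add]; push_cast; ring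
  map_smul' c u := by
    have ad : ∀ u u', Hf β (u + u') v = Hf β u v + Hf β u' v := fun u u' => by
      simp only [Hf, f2_add]; push_cast; ring
    have sm : ∀ (a : ℝ) u, Hf β (a • u) v = a * Hf β u v := fun a u => by
      simp only [Hf, f2_smul]; push_cast; ring
    have e : c • u = c.re • u + c.im • I • u := by
      funext k
      simp only [Pi.smul_apply, Pi.add_apply, smul_eq_mul, real_smul]
      conv_lhs => rw [← re_add_im c]
      ring
    simp only [RingHom.id_apply, smul_eq_mul]
    rw [e, ad, sm, sm, h.hf_I]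
    conv_rhs => rw [← re_add_im c]
    ring

lemma Inv.hf_left {β : F2 n} (h : Inv β) (u v : Cm n) :
    Hf β u v = ∑ p, u p * Hf β (Pi.single p 1) v := by
  have e : u = ∑ p, u p • (Pi.single p 1 : Cm n) := by
    funext k; simp [Finset.sum_apply, Pi.single_apply]
  have := congrArg (h.hl v) e
  rw [map_sum] at this
  simp only [map_smul, smul_eq_mul] at this
  exact this

/-- the matrix of the Hermitian form -/
def Hm (β : F2 n) : Matrix (Fin n) (Fin n) ℂ :=
  Matrix.of fun i j => Hf β (Pi.single i 1) (Pi.single j 1)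

lemma Inv.hf_eq {β : F2 n} (h : Inv β) (u v : Cm n) :
    Hf β u v = ∑ p, ∑ q, u p * Hm β p q * conj (v q) := by
  rw [h.hf_left]
  refine Finset.sum_congr rfl fun p _ => ?_
  rw [h.hf_conj v, h.hf_left v, map_sum, Finset.mul_sum]
  refine Finset.sum_congr rfl fun q _ => ?_
  rw [map_mul, ← h.hf_conj]
  simp only [Hm, Matrix.of_apply]; ring

lemma Inv.posDef {β : F2 n} (h : Inv β) (hp : ∀ v : Cm n, v ≠ 0 → 0 < β ![v, I • v]) :
    (Hm β).PosDef := by
  refine Matrix.PosDef.of_dotProduct_mulVec_pos ?_ fun x hx => ?_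
  · ext i j
    simp only [Matrix.conjTranspose_apply, Hm, Matrix.of_apply]
    exact (h.hf_conj _ _).symm
  · have e : dotProduct (star x) ((Hm β).mulVec x) = Hf β (star x) (star x) := by
      rw [h.hf_eq]
      simp only [dotProduct, Matrix.mulVec, Finset.mul_sum, Pi.star_apply, RCLike.star_def,
        conj_conj, mul_assoc]
    have z : β ![star x, star x] = 0 := by
      have := f2_swap β (star x) (star x); linarith
    rw [e, Hf, z]
    simp only [ofReal_zero, mul_zero, sub_zero]
    exact_mod_cast hp _ (star_ne_zero.2 hx)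

lemma comp_apply (β : F2 n) (L : Cm n →L[ℝ] Cm n) (u v : Cm n) :
    β.compContinuousLinearMap L ![u, v] = β ![L u, L v] := by
  rw [ContinuousAlternatingMap.compContinuousLinearMap_apply]
  congr 1; funext i; fin_cases i <;> rfl

/-- the symmetry `∂_k w_{i j̄} = ∂_i w_{k j̄}` for a closed invariant form -/
lemma dz_symm {G : Cm n → F2 n} {z : Cm n} (hd : DifferentiableAt ℝ G z) (h0 : extDeriv G z = 0)
    (hi : ∀ᶠ y in 𝓝 z, Inv (G y)) (i j k : Fin n) :
    dz k (fun y => Hm (G y) i j) z = dz i (fun y => Hm (G y) k j) z := by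
  set B : Cm n → Cm n → Cm n → ℝ := fun a u v => fderiv ℝ (fun y => G y ![u, v]) z a with hB
  have cyc : ∀ a b c, B a b c - B b a c + B c a b = 0 := fun a b c => by
    have := extDeriv_apply hd ![a, b, c]
    rw [h0, Fin.sum_univ_three] at this
    have e0 : Fin.removeNth (0 : Fin 3) ![a, b, c] = ![b, c] := by
      funext i; fin_cases i <;> rfl
    have e1 : Fin.removeNth (1 : Fin 3) ![a, b, c] = ![a, c] := by
      funext i; fin_cases i <;> rfl
    have e2 : Fin.removeNth (2 : Fin 3) ![a, b, c] = ![a, b] := by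
      funext i; fin_cases i <;> rfl
    rw [e0, e1, e2] at this
    simp only [hB]
    simp at this
    linarith
  have inv : ∀ a u v, B a (I • u) (I • v) = B a u v := fun a u v => by
    simp only [hB]
    rw [Filter.EventuallyEq.fderiv_eq (f := fun y => G y ![u, v])
      (by filter_upwards [hi] with y hy using hy u v)]
  have lft : ∀ a u v, B a (I • u) v = -B a u (I • v) := fun a u v => by
    simp only [hB]
    rw [Filter.EventuallyEq.fderiv_eq (f := fun y => -G y ![u, I • v])
      (by filter_upwards [hi] with y hy using hy.left u v), fderiv_fun_neg]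
    rfl
  have der : ∀ a u v, fderiv ℝ (fun y => Hf (G y) u v) z a =
      (B a u (I • v) : ℂ) - I * (B a u v : ℂ) := fun a u v => by
    have h1 := ofRealCLM.hasFDerivAt.comp z
      (hd.continuousAlternatingMap_apply_const ![u, I • v]).hasFDerivAt
    have h2 := ofRealCLM.hasFDerivAt.comp z
      (hd.continuousAlternatingMap_apply_const ![u, v]).hasFDerivAt
    have h3 := (h1.sub (h2.const_mul I)).fderiv
    have e : (fun y => Hf (G y) u v) = (ofRealCLM ∘ fun y => G y ![u, I • v]) -
        fun y => I * (ofRealCLM ∘ fun y => G y ![u, v]) y := rfl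
    rw [e, h3]
    rfl
  have sI : ∀ j : Fin n, (Pi.single j I : Cm n) = I • Pi.single j 1 := fun j => by
    funext k; simp [Pi.single_apply]
  simp only [dz, Hm, Matrix.of_apply, der, sI]
  set a : Cm n := Pi.single k 1
  set u : Cm n := Pi.single i 1
  set v : Cm n := Pi.single j 1
  have c1 := cyc a u (I • v)
  have c2 := cyc (I • a) (I • u) (I • v)
  have c3 := cyc a u v
  have c4 := cyc (I • a) (I • u) v
  rw [inv, inv, inv] at c2
  rw [lft, lft, inv] at c4
  have r1 : (B a u (I • v) : ℂ) - B (I • a) u v = B u a (I • v) - B (I • u) a v := by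
    exact_mod_cast (by linarith : B a u (I • v) - B (I • a) u v = B u a (I • v) - B (I • u) a v)
  have r2 : (B a u v : ℂ) + B (I • a) u (I • v) = B u a v + B (I • u) a (I • v) := by
    exact_mod_cast (by linarith : B a u v + B (I • a) u (I • v) = B u a v + B (I • u) a (I • v))
  linear_combination r1 / 2 - I * r2 / 2 +
    ((B (I • a) u v : ℂ) - B (I • u) a v) / 2 * I_mul_I

variable {X : Type} [TopologicalSpace X] [ChartedSpace (Cm n) X] [IsManifold 𝓘(ℂ, Cm n) ω X]
  {e e' e'' : Chart n X} {x : X}

/-- the differential of a change of charts -/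
def tr (e e' : Chart n X) (x : X) : Cm n →L[ℂ] Cm n := fderiv ℂ (fun z => e' (e.symm z)) (e x)

lemma at_chart (x : X) : At (chartAt (Cm n) x) x := ⟨chart_mem_atlas _ _, mem_chart_source _ _⟩

lemma tr_comp (h : At e x) (h' : At e' x) (h'' : At e'' x) (v : Cm n) :
    tr e e'' x v = tr e' e'' x (tr e e' x v) := by
  have h1 : (fun z => e'' (e.symm z)) =ᶠ[𝓝 (e x)]
      (fun z => e'' (e'.symm z)) ∘ fun z => e' (e.symm z) := by
    filter_upwards [h.nhds_at h'] with z hz
    simp only [Function.comp_apply]
    rw [hz.2.2.left_inv]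
  have h2 : e' (e.symm (e x)) = e' x := by rw [h.left_inv]
  rw [tr, h1.fderiv_eq, fderiv_comp _ (by rw [h2]; exact transition_differentiableAt h' h'')
    (transition_differentiableAt h h'), h2]
  rfl

lemma tr_self (h : At e x) (v : Cm n) : tr e e x v = v := by
  have h1 : (fun z => e (e.symm z)) =ᶠ[𝓝 (e x)] id := by
    filter_upwards [h.nhds_target] with z hz using e.right_inv hz
  rw [tr, h1.fderiv_eq, fderiv_id]; rfl

lemma tr_apply (h : At e x) (h' : At e' x) (v : Cm n) (p : Fin n) :
    tr e e' x v p = ∑ i, jacM e e' x p i * v i :=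
  jmat_mulVec (transition_differentiableAt h h') v p

lemma fderiv_tr (h : At e x) (h' : At e' x) :
    fderiv ℝ (fun z => e' (e.symm z)) (e x) = (tr e e' x).restrictScalars ℝ :=
  (transition_differentiableAt h h').fderiv_restrictScalars ℝ

lemma mfderiv_symm (h : At e x) :
    (mfderiv 𝓘(ℝ, Cm n) 𝓘(ℝ, Cm n) e.symm (e x) : Cm n →L[ℝ] Cm n) =
      (tr e (chartAt (Cm n) x) x).restrictScalars ℝ := by
  have e1 : writtenInExtChartAt 𝓘(ℝ, Cm n) 𝓘(ℝ, Cm n) (e x) e.symm =
      fun z => chartAt (Cm n) x (e.symm z) := by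
    funext z
    simp [writtenInExtChartAt, h.left_inv]
    rfl
  have hd : MDifferentiableAt 𝓘(ℝ, Cm n) 𝓘(ℝ, Cm n) e.symm (e x) := by
    rw [mdifferentiableAt_iff, e1]
    exact ⟨e.continuousAt_symm h.mem_target,
      ((transition_differentiableAt h (at_chart x)).restrictScalars ℝ).differentiableWithinAt⟩
  rw [hd.mfderiv, e1, ← fderiv_tr h (at_chart x)]
  simp
  rfl

variable {η : Form2 (Cm n) X}

/-- the form at a point as a form on the model space -/
def pt (η : Form2 (Cm n) X) (x : X) : F2 n := η x

lemma inChart_eq (h : At e x) :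
    inChart η e (e x) = (pt η x).compContinuousLinearMap
      ((tr e (chartAt (Cm n) x) x).restrictScalars ℝ) := by
  have : inChart η e (e x) = (pt η (e.symm (e x))).compContinuousLinearMap
      (mfderiv 𝓘(ℝ, Cm n) 𝓘(ℝ, Cm n) e.symm (e x) : Cm n →L[ℝ] Cm n) := rfl
  rw [this, mfderiv_symm h, h.left_inv]
  rfl

lemma inChart_apply (h : At e x) (u v : Cm n) :
    inChart η e (e x) ![u, v] =
      pt η x ![tr e (chartAt (Cm n) x) x u, tr e (chartAt (Cm n) x) x v] := by
  rw [inChart_eq h, comp_apply]; rfl

lemma inChart_change (h : At e x) (h' : At e' x) :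
    inChart η e (e x) = (inChart η e' (e' x)).compContinuousLinearMap
      ((tr e e' x).restrictScalars ℝ) := by
  ext w
  have : w = ![w 0, w 1] := by funext i; fin_cases i <;> rfl
  rw [this, comp_apply, inChart_apply h, inChart_apply h', tr_comp h h' (at_chart x),
    tr_comp h h' (at_chart x)]
  rfl

lemma IsKahlerForm.inv_at (hη : IsKahlerForm η) (h : At e x) : Inv (inChart η e (e x)) := by
  intro u v
  rw [inChart_apply h, inChart_apply h, map_smul, map_smul]
  exact hη.inv x _ _

lemma IsKahlerForm.change (hη : IsKahlerForm η) (h : At e x) (h' : At e' x) :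
    Hm (inChart η e (e x)) = (jacM e e' x).transpose * Hm (inChart η e' (e' x)) *
      (jacM e e' x).map (starRingEnd ℂ) := by
  ext i j
  have e1 : Hm (inChart η e (e x)) i j = Hf (inChart η e' (e' x))
      (tr e e' x (Pi.single i 1)) (tr e e' x (Pi.single j 1)) := by
    rw [inChart_change h h']
    simp only [Hm, Hf, Matrix.of_apply, comp_apply, ContinuousLinearMap.coe_restrictScalars',
      map_smul]
  have e2 : ∀ i p, tr e e' x (Pi.single i 1) p = jacM e e' x p i := fun i p => by
    rw [tr_apply h h']; simp [Pi.single_apply]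
  rw [e1, (hη.inv_at h').hf_eq, Finset.sum_comm]
  simp only [e2, Matrix.mul_apply, Matrix.transpose_apply, Matrix.map_apply, Finset.sum_mul]

lemma two_le : (2 : WithTop ℕ∞) ≤ ∞ := WithTop.coe_le_coe.2 (le_top : (2 : ℕ∞) ≤ ⊤)

theorem IsKahlerForm.isKahler (hη : IsKahlerForm η) :
    IsKahler fun (e : Chart n X) z => Hm (inChart η e z) := by
  have sm : ∀ x : X, ContDiffAt ℝ ∞ (inChart η (chartAt (Cm n) x)) (chartAt (Cm n) x x) := fun x =>
    (hη.smooth x).contDiffAt ((chartAt (Cm n) x).open_target.mem_nhds (at_chart x).mem_target)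
  have smτ : ∀ {e e' : Chart n X} {x : X}, At e x → At e' x →
      ContDiffAt ℝ ∞ (fun z => e' (e.symm z)) (e x) := fun h h' =>
    ((transition h h').restrict_scalars ℝ).of_le le_top
  refine ⟨⟨fun e x h i j => ?_, fun e x h => (hη.inv_at h).posDef fun v hv => ?_,
    fun e e' x h h' => hη.change h h'⟩, fun e x h i j k => ?_⟩
  · set c := chartAt (Cm n) x
    have hc : At c x := at_chart x
    have h2 : c (e.symm (e x)) = c x := by rw [h.left_inv]
    have ev : (fun z => Hm (inChart η e z) i j) =ᶠ[𝓝 (e x)] fun z => ∑ q, (∑ p,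
        jacM e c (e.symm z) p i * Hm (inChart η c (c (e.symm z))) p q) *
          conj (jacM e c (e.symm z) q j) := by
      filter_upwards [h.nhds_at hc] with z hz
      have := hη.change hz.2.1 hz.2.2
      rw [e.right_inv hz.1] at this
      rw [this]
      simp only [Matrix.mul_apply, Matrix.transpose_apply, Matrix.map_apply]
    refine ContDiffAt.congr_of_eventuallyEq ?_ ev
    have hj : ∀ p i, ContDiffAt ℝ ∞ (fun z => jacM e c (e.symm z) p i) (e x) := fun p i =>
      ((jacM_holo h hc p i).restrict_scalars ℝ).of_le le_top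
    have hG : ContDiffAt ℝ ∞ (fun z => inChart η c (c (e.symm z))) (e x) :=
      ContDiffAt.comp (e x) (g := inChart η c) (by rw [h2]; exact sm x) (smτ h hc)
    have hv : ∀ w : Fin 2 → Cm n, ContDiffAt ℝ ∞
        (fun z => ((inChart η c (c (e.symm z)) w : ℝ) : ℂ)) (e x) := fun w =>
      ofRealCLM.contDiff.contDiffAt.comp (e x)
        ((ContinuousAlternatingMap.apply ℝ (Cm n) ℝ w).contDiff.contDiffAt.comp (e x) hG)
    refine ContDiffAt.sum fun q _ => (ContDiffAt.sum fun p _ => (hj p i).mul ?_).mul
      (conjCLE.contDiff.contDiffAt.comp (e x) (hj q j))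
    exact (hv _).sub (contDiffAt_const.mul (hv _))
  · rw [inChart_apply h, map_smul]
    refine hη.pos x _ fun h0 => hv ?_
    rw [← tr_self h v, tr_comp h (at_chart x) h]
    have h1 : tr e (chartAt (Cm n) x) x v = 0 := h0
    rw [h1, map_zero]
  · set c := chartAt (Cm n) x
    have hc : At c x := at_chart x
    have h2 : c (e.symm (e x)) = c x := by rw [h.left_inv]
    have ev : inChart η e =ᶠ[𝓝 (e x)] fun z => (inChart η c (c (e.symm z))).compContinuousLinearMap
        (fderiv ℝ (fun z => c (e.symm z)) z) := by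
      filter_upwards [h.nhds_at hc] with z hz
      have := inChart_change (η := η) hz.2.1 hz.2.2
      rw [← fderiv_tr hz.2.1 hz.2.2, e.right_inv hz.1] at this
      exact this
    have d1 : DifferentiableAt ℝ (inChart η c) (c (e.symm (e x))) := by
      rw [h2]; exact (sm x).differentiableAt (by simp)
    have d2 := (smτ h hc).differentiableAt (by simp)
    have d3 : DifferentiableAt ℝ (fderiv ℝ fun z => c (e.symm z)) (e x) :=
      ((smτ h hc).fderiv_right (m := 1) (one_add_one_eq_two.le.trans two_le)).differentiableAt one_ne_zero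
    refine dz_symm (G := inChart η e) ?_ ?_ ?_ i j k
    · exact ((d1.comp (e x) d2).continuousAlternatingMapCompContinuousLinearMap
        d3).congr_of_eventuallyEq ev
    · rw [ev.extDeriv_eq, extDeriv_pullback (f := fun z => c (e.symm z)) d1 (smτ h hc)
        (by simpa using two_le), h2, hη.closed x _ hc.mem_target]
      rfl
    · filter_upwards [h.nhds_at hc] with z hz
      have := hη.inv_at hz.2.1
      rwa [e.right_inv hz.1] at this

end Vale.Agent.P272L

end
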