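import Vale.Agent.P272L68.A
import Vale.Agent.P272.KOD.Defs

/-! From coefficient functions to sections of `K_X^{⊗ m}` and to the embedding. -/

open scoped Manifold ContDiff Topology
open Filter Bundle

set_option linter.all false

noncomputable section

namespace Vale.Agent.P272L

open Vale.Agent.P272.K Vale.Agent.P272.KOD Vale.Agent.P264Z

variable {n m : ℕ} {X : Type} [TopologicalSpace X] [ChartedSpace (Cm n) X]

/-- the form `dz₁ ∧ ⋯ ∧ dz_n` of the preferred chart at `x` -/
def dz0 (x : X) : Can (Tan (Cm n) x) n := (Matrix.detRowAlternating : Can (Cm n) n)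

/-- the frame `(dz₁ ∧ ⋯ ∧ dz_n)^{⊗ m}` of the preferred chart at `x` -/
def frame (m : ℕ) (x : X) : Kpow (Tan (Cm n) x) n m :=
  PiTensorProduct.tprod ℂ fun _ => dz0 x

/-- determinant of `n` vectors -/
def dt (v : Fin n → Cm n) : ℂ := (Matrix.of fun a b => v a b).det

lemma ev_frame (x : X) (c : ℂ) (v : Fin m → Fin n → Tan (Cm n) x) :
    ev (c • frame m x) v = c * ∏ i, dt (v i) := by
  rw [ev, prodForm, map_smul, frame, PiTensorProduct.lift.tprod, smul_eq_mul,
    MultilinearMap.compLinearMap_apply, MultilinearMap.mkPiAlgebra_apply]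
  rfl

lemma frame_ne (x : X) : (frame m x : Kpow (Tan (Cm n) x) n m) ≠ 0 := fun h => by
  have h1 := ev_frame (m := m) x 1 fun _ k => (Pi.single k 1 : Cm n)
  have h2 : dt (fun k => (Pi.single k 1 : Cm n)) = 1 := by
    rw [dt, ← Matrix.det_one (n := Fin n)]
    congr 1
    ext a b
    simp [Matrix.one_apply, Pi.single_apply, eq_comm]
  have h3 : ∀ v, ev (0 : Kpow (Tan (Cm n) x) n m) v = 0 := fun v => by
    rw [ev, prodForm, map_zero]
  rw [h, smul_zero] at h1
  have h4 := (h3 _).symm.trans h1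
  simp [h2] at h4

lemma dprod {ι : Type} [Fintype ι] {f : ι → Cm n → ℂ} {z : Cm n}
    (h : ∀ i, DifferentiableAt ℂ (f i) z) : DifferentiableAt ℂ (fun y => ∏ i, f i y) z := by
  classical
  exact (HasFDerivAt.finsetProd fun i _ => (h i).hasFDerivAt).differentiableAt

lemma dt_diff {W : Fin n → Cm n → Cm n} {z : Cm n} (h : ∀ k, DifferentiableAt ℂ (W k) z) :
    DifferentiableAt ℂ (fun y => dt fun k => W k y) z := by
  simp only [dt, Matrix.det_apply', Matrix.of_apply]
  refine DifferentiableAt.fun_sum fun σ _ => (differentiableAt_const _).mul ?_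
  exact dprod fun i => differentiableAt_pi.1 (h _) i

variable [IsManifold 𝓘(ℂ, Cm n) ω X]

lemma dt_tr {e e' : Chart n X} {x : X} (h : At e x) (h' : At e' x) (v : Fin n → Cm n) :
    (dt fun k => tr e e' x (v k)) = (jacM e e' x).det * dt v := by
  rw [dt, dt, mul_comm, ← Matrix.det_transpose (jacM e e' x), ← Matrix.det_mul]
  congr 1
  ext a b
  simp only [Matrix.of_apply, Matrix.mul_apply, Matrix.transpose_apply, tr_apply h h', mul_comm]

lemma md_iff {F : Type} [NormedAddCommGroup F] [NormedSpace ℂ F] {g : X → F} {x : X} :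
    MDifferentiableAt 𝓘(ℂ, Cm n) 𝓘(ℂ, F) g x ↔
      DifferentiableAt ℂ (fun z => g ((chartAt (Cm n) x).symm z)) (chartAt (Cm n) x x) := by
  rw [mdifferentiableAt_iff_source_of_mem_source (x := x) (mem_chart_source _ x),
    modelWithCornersSelf_coe, Set.range_id, mdifferentiableWithinAt_univ,
    mdifferentiableAt_iff_differentiableAt]
  rfl

theorem holSec (s : PSec n m X) :
    IsHolSec (E := Cm n) (n := n) fun x => s.val x • frame m x := by
  intro U V hU hV x hx
  refine MDifferentiableAt.mdifferentiableWithinAt ?_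
  set c := chartAt (Cm n) x with hc
  have hx' : At c x := at_chart x
  let W : Fin m → Fin n → X → Cm n := fun i k y =>
    (trivializationAt (Cm n) (TangentSpace 𝓘(ℂ, Cm n)) x ⟨y, V i k y⟩).2
  have hW : ∀ i k, DifferentiableAt ℂ (fun z => W i k (c.symm z)) (c x) := fun i k =>
    md_iff.1 ((mdifferentiableAt_section 𝓘(ℂ, Cm n) (V i k)).1
      ((hV i k x hx).mdifferentiableAt (hU.mem_nhds hx)))
  have eW : ∀ i k y, W i k y = tr (chartAt (Cm n) y) c y (V i k y) := fun i k y => by
    simp only [W, TangentBundle.trivializationAt_apply, modelWithCornersSelf_coe, Set.range_id,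
      fderivWithin_univ]
    rfl
  rw [md_iff]
  have hd : DifferentiableAt ℂ (fun z => s.coeff c z * ∏ i, dt fun k => W i k (c.symm z)) (c x) :=
    (s.holo c x hx').differentiableAt.mul
      (dprod fun i => dt_diff fun k => hW i k)
  refine hd.congr_of_eventuallyEq ?_
  filter_upwards [hx'.nhds_target] with z hz
  have hy : At c (c.symm z) := At.of_target hx'.1 hz
  have h1 := s.change _ c _ (at_chart (c.symm z)) hy
  rw [c.right_inv hz] at h1
  have h2 : ∀ i, (dt fun k => W i k (c.symm z)) =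
      (jacM (chartAt (Cm n) (c.symm z)) c (c.symm z)).det * dt fun k => V i k (c.symm z) :=
    fun i => (congrArg dt (funext fun k => eW i k _)).trans (dt_tr (at_chart _) hy _)
  rw [ev_frame, PSec.val, h1]
  simp only [h2, Finset.prod_mul_distrib, Finset.prod_const,
    Finset.card_univ, Fintype.card_fin, mul_assoc]
  rfl

variable {N : ℕ} {s : Fin (N + 1) → PSec n m X}

/-- the map to projective space -/
def phi (hs : DefinesEmbedding s) (x : X) : CP N := CP.mk ⟨fun i => (s i).val x, hs.ne_zero x⟩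

lemma phi_chart (hs : DefinesEmbedding s) (x : X) :
    ∃ i, chartAt (Cm N) (phi hs x) = CP.chart i ∧ (s i).val x ≠ 0 := by
  obtain ⟨i, hi⟩ := (CP.mem_atlas_iff _).1 (chart_mem_atlas (Cm N) (phi hs x))
  have h := mem_chart_source (Cm N) (phi hs x)
  rw [← hi] at h
  exact ⟨i, hi.symm, (CP.mem_source_mk i _).1 h⟩

/-- the affine coordinates of the map in the preferred chart -/
def af (s : Fin (N + 1) → PSec n m X) (x : X) (i : Fin (N + 1)) (z : Cm n) : Cm N :=
  CP.aff i fun j => (s j).coeff (chartAt (Cm n) x) z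

lemma af_an {x : X} {i : Fin (N + 1)} (hi : (s i).val x ≠ 0) :
    AnalyticAt ℂ (af s x i) (chartAt (Cm n) x x) :=
  analyticAt_pi_iff.2 fun j =>
    ((s _).holo _ x (at_chart x)).div ((s i).holo _ x (at_chart x)) hi

lemma phi_loc (hs : DefinesEmbedding s) {x : X} {i : Fin (N + 1)} (hi : (s i).val x ≠ 0) :
    phi hs =ᶠ[𝓝 x] fun y => CP.pt i (af s x i (chartAt (Cm n) x y)) := by
  set c := chartAt (Cm n) x with hc
  have hx' : At c x := at_chart x
  have h1 : ∀ᶠ y in 𝓝 x, (s i).coeff c (c y) ≠ 0 :=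
    (((s i).holo c x hx').continuousAt.comp (c.continuousAt hx'.2)).eventually_ne hi
  filter_upwards [h1, c.open_source.mem_nhds hx'.2] with y hy hy'
  have h2 : ∀ j, (s j).val y = (s j).coeff c (c y) * (jacM (chartAt (Cm n) y) c y).det ^ m :=
    fun j => (s j).change _ c _ (at_chart y) ⟨hx'.1, hy'⟩
  refine (CP.mk_eq_iff _ _).2 ⟨(jacM (chartAt (Cm n) y) c y).det ^ m * (s i).coeff c (c y), ?_⟩
  have h3 := CP.smul_ins_aff i (v := fun j => (s j).coeff c (c y)) hy
  funext j
  have h4 := congrFun h3 j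
  simp only [Pi.smul_apply, smul_eq_mul] at h4 ⊢
  rw [h2, ← h4, mul_assoc, mul_comm]
  rfl

lemma phi_smooth (hs : DefinesEmbedding s) :
    ContMDiff 𝓘(ℂ, Cm n) 𝓘(ℂ, Cm N) ω (phi hs) := fun x => by
  obtain ⟨i, -, hi⟩ := phi_chart hs x
  refine ContMDiffAt.congr_of_eventuallyEq ?_ (phi_loc hs hi)
  have h1 : ContMDiffAt 𝓘(ℂ, Cm N) 𝓘(ℂ, Cm N) ω (CP.pt i) (af s x i (chartAt (Cm n) x x)) :=
    chart_symm_contMDiffAt (e := CP.chart i) (Set.mem_range_self i) (Set.mem_univ _)
  have h2 : ContMDiffAt 𝓘(ℂ, Cm n) 𝓘(ℂ, Cm N) ω (af s x i) (chartAt (Cm n) x x) :=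
    (af_an hi).contDiffAt.contMDiffAt
  exact ContMDiffAt.comp x (g := CP.pt i) (f := af s x i ∘ chartAt (Cm n) x) h1
    (h2.comp x (chart_contMDiffAt (at_chart x)))

lemma phi_imm (hs : DefinesEmbedding s) (x : X) :
    Function.Injective (mfderiv 𝓘(ℂ, Cm n) 𝓘(ℂ, Cm N) (phi hs) x) := by
  obtain ⟨i, hc', hi⟩ := phi_chart hs x
  have hx' := at_chart (n := n) x
  have e1 : writtenInExtChartAt 𝓘(ℂ, Cm n) 𝓘(ℂ, Cm N) x (phi hs) =ᶠ[𝓝 (chartAt (Cm n) x x)]
      af s x i := by
    have h1 : Tendsto (chartAt (Cm n) x).symm (𝓝 (chartAt (Cm n) x x)) (𝓝 x) := by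
      have := (chartAt (Cm n) x).continuousAt_symm hx'.mem_target
      rwa [ContinuousAt, hx'.left_inv] at this
    filter_upwards [h1.eventually (phi_loc hs hi), hx'.nhds_target] with z hz hz'
    have : writtenInExtChartAt 𝓘(ℂ, Cm n) 𝓘(ℂ, Cm N) x (phi hs) z =
      chartAt (Cm N) (phi hs x) (phi hs ((chartAt (Cm n) x).symm z)) := rfl
    rw [this, hc', hz, CP.chart_pt, (chartAt (Cm n) x).right_inv hz']
  have e2 : (mfderiv 𝓘(ℂ, Cm n) 𝓘(ℂ, Cm N) (phi hs) x : Cm n →L[ℂ] Cm N) =
      fderiv ℂ (af s x i) (chartAt (Cm n) x x) := by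
    rw [((phi_smooth hs x).mdifferentiableAt (by simp)).mfderiv, modelWithCornersSelf_coe,
      Set.range_id, fderivWithin_univ]
    exact e1.fderiv_eq
  refine (injective_iff_map_eq_zero _).2 fun v hv => ?_
  have hv' : fderiv ℂ (af s x i) (chartAt (Cm n) x x) v = 0 := by
    rw [← e2]; exact hv
  refine hs.immersive x i hi v fun j => ?_
  induction j using Fin.succAboveCases i with
  | x =>
    have h1 : (fun z => (s i).coeff (chartAt (Cm n) x) z / (s i).coeff (chartAt (Cm n) x) z)
        =ᶠ[𝓝 (chartAt (Cm n) x x)] fun _ => 1 := by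
      filter_upwards [((s i).holo _ x hx').continuousAt.eventually_ne hi] with z hz
      exact div_self hz
    rw [dratio, h1.fderiv_eq, fderiv_fun_const]; rfl
  | p j =>
    have h1 := fderiv_apply (af_an hi).differentiableAt j
    have h2 : dratio s x i (i.succAbove j) =
      fderiv ℂ (fun z => af s x i z j) (chartAt (Cm n) x x) := rfl
    rw [h2, h1]
    exact congrFun hv' j

theorem ample_of [CompactSpace X] (h : AmpleCanonical n X) : Ample (Cm n) X n := by
  obtain ⟨m, hm, N, s, hs⟩ := h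
  have hi : Function.Injective (phi hs) := hs.injective
  exact ⟨m, hm, N, fun j x => (s j).val x • frame m x, phi hs, fun j => holSec (s j),
    fun x => ⟨frame m x, ⟨fun i => (s i).val x, hs.ne_zero x⟩, frame_ne x, fun j => rfl, rfl⟩,
    phi_smooth hs, ((phi_smooth hs).continuous.isClosedEmbedding hi).isEmbedding, phi_imm hs⟩

end Vale.Agent.P272L

end
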