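import Vale.Agent.P272L68.Defs
import Mathlib.Geometry.Manifold.MFDeriv.FDeriv

/-! Kobayashi hyperbolic manifolds are Brody hyperbolic. -/

open scoped Manifold ContDiff Topology ENNReal
open Filter Metric

set_option linter.all false

noncomputable section

namespace Vale.Agent.P272L

variable {E : Type} [NormedAddCommGroup E] [NormedSpace ℂ E] {X : Type} [TopologicalSpace X]
  [ChartedSpace E X]

theorem Kobayashi.brody (h : Kobayashi E X) : Brody E X := by
  intro f hf s t
  refine h _ _ (le_antisymm ?_ bot_le)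
  have key : ∀ r : ℝ, 0 < r → r * ‖t - s‖ < 1 →
      kob E (f s) (f t) ≤ ENNReal.ofReal (Real.artanh (r * ‖t - s‖)) := by
    intro r hr h1
    have hr' : (r : ℂ) ≠ 0 := by exact_mod_cast hr.ne'
    have hn : ‖(r : ℂ) * (t - s)‖ = r * ‖t - s‖ := by
      rw [norm_mul, Complex.norm_real, Real.norm_of_nonneg hr.le]
    refine iInf_le_of_le 1 (iInf_le_of_le ![f s, f t] (iInf_le_of_le (fun _ z => f (s + z / r))
      (iInf_le_of_le (fun _ => 0) (iInf_le_of_le (fun _ => r * (t - s))
      (iInf_le_of_le ⟨rfl, rfl, fun i => ⟨?_, mem_ball_self one_pos, ?_, ?_, ?_⟩⟩ ?_)))))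
    · refine (hf.comp ?_).mdifferentiableOn
      exact (((differentiable_const s).add (differentiable_id.div_const (r : ℂ))) :
        Differentiable ℂ fun z : ℂ => s + z / r).mdifferentiable
    · rw [mem_ball_zero_iff, hn]; exact h1
    · fin_cases i; simp
    · fin_cases i
      show f (s + r * (t - s) / r) = f t
      congr 1; field_simp; ring
    · simp [poincare, abs_of_pos hr]
  have c0 : ContinuousAt Real.artanh 0 := by
    have : Real.artanh = fun x => Real.log √((1 + x) / (1 - x)) := rfl
    rw [this]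
    refine ContinuousAt.log (ContinuousAt.sqrt (ContinuousAt.div (by fun_prop) (by fun_prop)
      (by simp))) (by simp)
  have c1 : Tendsto (fun r : ℝ => r * ‖t - s‖) (𝓝[>] 0) (𝓝 0) := by
    have : Tendsto (fun r : ℝ => r * ‖t - s‖) (𝓝 0) (𝓝 (0 * ‖t - s‖)) :=
      (continuous_id.mul continuous_const).tendsto 0
    rw [zero_mul] at this
    exact this.mono_left nhdsWithin_le_nhds
  have c2 := ENNReal.tendsto_ofReal (c0.tendsto.comp c1)
  rw [Real.artanh_zero, ENNReal.ofReal_zero] at c2
  refine ge_of_tendsto c2 ?_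
  filter_upwards [self_mem_nhdsWithin, c1.eventually (gt_mem_nhds one_pos)] with r hr h1
  exact key r hr h1

end Vale.Agent.P272L

end
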