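import Vale.Agent.P264Z.G.CP
import Mathlib.Analysis.Calculus.DifferentialForm.Basic
import Mathlib.Analysis.SpecialFunctions.Artanh
import Mathlib.Geometry.Manifold.VectorBundle.MDifferentiable
import Mathlib.Geometry.Manifold.VectorBundle.Tangent
import Mathlib.LinearAlgebra.TensorPower.Basic

/-! Kähler forms, hyperbolicity, powers of the canonical bundle and ampleness, for a complex
manifold `X` with charts in `E` (in the theorem `E = ℂⁿ`). -/

open scoped Manifold ContDiff TensorProduct ENNReal ComplexConjugate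
open Bundle Metric

noncomputable section

namespace Vale.Agent.P272L

open Vale.Agent.P272.K (Cm)
open Vale.Agent.P264Z (CP)

section linear

variable (T : Type) [AddCommGroup T] [Module ℂ T] (n m : ℕ)

/-- The space `⋀ⁿ T^*` of alternating `n`-forms on `T`. -/
abbrev Can : Type := T [⋀^Fin n]→ₗ[ℂ] ℂ

/-- The tensor power `(⋀ⁿ T^*)^{⊗ m}`. -/
abbrev Kpow : Type := ⨂[ℂ]^m (Can T n)

variable {T n m}

/-- evaluation of `n`-forms on `n` vectors -/
def evalAt (v : Fin n → T) : Can T n →ₗ[ℂ] ℂ where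
  toFun κ := κ v
  map_add' _ _ := rfl
  map_smul' _ _ := rfl

/-- The linear form `κ₁ ⊗ ⋯ ⊗ κ_m ↦ ∏ l_i (κ_i)` on a tensor power. -/
def prodForm {L : Type} [AddCommGroup L] [Module ℂ L] (l : Fin m → L →ₗ[ℂ] ℂ) (κ : ⨂[ℂ]^m L) : ℂ :=
  PiTensorProduct.lift ((MultilinearMap.mkPiAlgebra ℂ (Fin m) ℂ).compLinearMap l) κ

/-- The value of `κ₁ ⊗ ⋯ ⊗ κ_m` on `m` tuples of `n` vectors: `∏ κ_i (v_i1, …, v_in)`. -/
def ev (κ : Kpow T n m) (v : Fin m → Fin n → T) : ℂ := prodForm (fun i => evalAt (v i)) κ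

/-- `p = [κ_0 : ⋯ : κ_N]`: the `κ_j` have coordinates `c_j`, not all zero, with respect to some
nonzero vector `ξ`, and `p` is the point of `ℙ^N` with homogeneous coordinates `c`. -/
def IsRatio {N : ℕ} (κ : Fin (N + 1) → Kpow T n m) (p : CP N) : Prop :=
  ∃ (ξ : Kpow T n m) (c : CP.V0 N), ξ ≠ 0 ∧ (∀ j, κ j = c.1 j • ξ) ∧ p = CP.mk c

end linear

/-- The Poincaré distance in the unit disc. -/
def poincare (a b : ℂ) : ℝ := Real.artanh ‖(a - b) / (1 - conj a * b)‖

variable (E : Type) [NormedAddCommGroup E] [NormedSpace ℂ E]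
  {X : Type} [TopologicalSpace X] [ChartedSpace E X]

section kahler

variable [NormedSpace ℝ E]

/-- the real tangent space at `x` -/
abbrev RTan (x : X) : Type := TangentSpace 𝓘(ℝ, E) x

variable (X) in
/-- real 2-forms on `X` -/
abbrev Form2 : Type := ∀ x : X, RTan E x [⋀^Fin 2]→L[ℝ] ℝ

variable {E}

/-- The complex structure `J`: multiplication by `i` on the tangent space at `x`. -/
def J {x : X} (v : RTan E x) : RTan E x := (Complex.I • (show E from v) : E)

/-- The 2-form `η` read in the chart `e`: its pull back by `e⁻¹`. -/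
def inChart (η : Form2 E X) (e : OpenPartialHomeomorph X E) (z : E) : E [⋀^Fin 2]→L[ℝ] ℝ :=
  (η (e.symm z)).compContinuousLinearMap (mfderiv 𝓘(ℝ, E) 𝓘(ℝ, E) e.symm z)

/-- A Kähler form: a smooth closed real 2-form which is `J`-invariant and positive. -/
structure IsKahlerForm (η : Form2 E X) : Prop where
  smooth : ∀ p : X, ContDiffOn ℝ ∞ (inChart η (chartAt E p)) (chartAt E p).target
  closed : ∀ p : X, ∀ z ∈ (chartAt E p).target, extDeriv (inChart η (chartAt E p)) z = 0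
  inv : ∀ (x : X) (v w : RTan E x), η x ![J v, J w] = η x ![v, w]
  pos : ∀ (x : X) (v : RTan E x), v ≠ 0 → 0 < η x ![v, J v]

end kahler

variable (X) in
/-- Every entire curve is constant. -/
def Brody : Prop := ∀ f : ℂ → X, MDifferentiable 𝓘(ℂ, ℂ) 𝓘(ℂ, E) f → ∀ s t : ℂ, f s = f t

/-- The Kobayashi pseudodistance: the infimum of the lengths of the chains of holomorphic discs
from `x` to `y`. -/
def kob (x y : X) : ℝ≥0∞ :=
  ⨅ (k : ℕ) (p : Fin (k + 1) → X) (f : Fin k → ℂ → X) (a : Fin k → ℂ) (b : Fin k → ℂ)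
    (_ : p 0 = x ∧ p (Fin.last k) = y ∧ ∀ i,
      MDifferentiableOn 𝓘(ℂ, ℂ) 𝓘(ℂ, E) (f i) (ball 0 1) ∧ a i ∈ ball 0 1 ∧ b i ∈ ball 0 1 ∧
      f i (a i) = p i.castSucc ∧ f i (b i) = p i.succ),
    ENNReal.ofReal (∑ i, poincare (a i) (b i))

variable (X) in
/-- The Kobayashi pseudodistance is nondegenerate. -/
def Kobayashi : Prop := ∀ x y : X, kob E x y = 0 → x = y

/-- A holomorphic embedding: an analytic map which is a homeomorphism onto its image and an
immersion. -/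
def IsHolEmb (F : Type) [NormedAddCommGroup F] [NormedSpace ℂ F] {Y : Type} [TopologicalSpace Y]
    [ChartedSpace F Y] (Φ : X → Y) : Prop :=
  ContMDiff 𝓘(ℂ, E) 𝓘(ℂ, F) ω Φ ∧ Topology.IsEmbedding Φ ∧
    ∀ x, Function.Injective (mfderiv 𝓘(ℂ, E) 𝓘(ℂ, F) Φ x)

/-- the holomorphic tangent space `T^{1,0}_x X` -/
abbrev Tan (x : X) : Type := TangentSpace 𝓘(ℂ, E) x

variable (X) in
/-- Sections of `K_X^{⊗ m}`, `K_X = ⋀ⁿ (T^{1,0} X)^*`, `n = dim X`. -/
abbrev Sec (n m : ℕ) : Type := ∀ x : X, Kpow (Tan E x) n m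

variable [IsManifold 𝓘(ℂ, E) ω X]

variable {E} in
/-- A holomorphic section of `K_X^{⊗ m}`: its value on holomorphic vector fields on an open set is
a holomorphic function. -/
def IsHolSec {n m : ℕ} (s : Sec E X n m) : Prop :=
  ∀ (U : Set X) (V : Fin m → Fin n → ∀ x : X, Tan E x), IsOpen U →
    (∀ i k, MDifferentiableOn 𝓘(ℂ, E) 𝓘(ℂ, E).tangent
      (fun x => (TotalSpace.mk' E x (V i k x) : TangentBundle 𝓘(ℂ, E) X)) U) →
    MDifferentiableOn 𝓘(ℂ, E) 𝓘(ℂ, ℂ) (fun x => ev (s x) fun i k => V i k x) U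

variable (X) in
/-- `K_X` is ample (`n = dim X`): global sections `s_0, …, s_N` of some `K_X^{⊗ m}`, `m ≥ 1`,
define a holomorphic embedding `Φ = [s_0 : ⋯ : s_N]` of `X` into `ℙ^N`. -/
def Ample (n : ℕ) : Prop :=
  ∃ m : ℕ, 1 ≤ m ∧ ∃ (N : ℕ) (s : Fin (N + 1) → Sec E X n m) (Φ : X → CP N),
    (∀ j, IsHolSec (s j)) ∧ (∀ x, IsRatio (fun j => s j x) (Φ x)) ∧ IsHolEmb E (Cm N) Φ

end Vale.Agent.P272L

end
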